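import Crest.Agent.X262.Rig38.Tri

-- ▼ part X262/Rig38/Bih
section

/-!
# Row 262, G4, RIG (helper38): bihomogeneous polynomials

* `BH p a b`, `cp a b` (components), `cp_map`, `cp_mul`;
* `dd a b` : the derivations `∑ i, X (a, i) ∂ / ∂ X (b, i)`, Euler identities, `sl₂` relation;
* `BH.f_zero` : a highest weight vector of bidegree `(2, 2)` is invariant.
-/

set_option autoImplicit false

open MvPolynomial

noncomputable section

namespace Crest.Agent.X262.Rig38

section gen

variable {n R : Type} [CommRing R]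

/-- polynomials in two vectors -/
abbrev BP (n R : Type) [CommRing R] : Type := MvPolynomial (Fin 2 × n) R

/-- the bidegree -/
def wt (n : Type) : Fin 2 × n → ℤ × ℤ := fun m => if m.1 = 0 then (1, 0) else (0, 1)

/-- bihomogeneous polynomials -/
def BH (p : BP n R) (a b : ℤ) : Prop := IsWeightedHomogeneous (wt n) p (a, b)

theorem BH.cast {p : BP n R} {a b a' b' : ℤ} (h : BH p a b) (ha : a = a') (hb : b = b') :
    BH p a' b' := ha ▸ hb ▸ h

theorem bh_zero (a b : ℤ) : BH (0 : BP n R) a b := isWeightedHomogeneous_zero _ _ _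

theorem bh_C (r : R) : BH (C r : BP n R) 0 0 := isWeightedHomogeneous_C _ _

theorem bh_x (i : n) : BH (X (0, i) : BP n R) 1 0 := isWeightedHomogeneous_X _ _ _

theorem bh_y (i : n) : BH (X (1, i) : BP n R) 0 1 := isWeightedHomogeneous_X _ _ _

theorem BH.add {p q : BP n R} {a b : ℤ} (h : BH p a b) (h' : BH q a b) : BH (p + q) a b :=
  IsWeightedHomogeneous.add h h'

theorem BH.sub {p q : BP n R} {a b : ℤ} (h : BH p a b) (h' : BH q a b) : BH (p - q) a b :=
  IsWeightedHomogeneous.sub h h'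

theorem BH.neg {p : BP n R} {a b : ℤ} (h : BH p a b) : BH (-p) a b :=
  IsWeightedHomogeneous.neg h

theorem BH.mul {p q : BP n R} {a b a' b' : ℤ} (h : BH p a b) (h' : BH q a' b') :
    BH (p * q) (a + a') (b + b') := IsWeightedHomogeneous.mul h h'

theorem BH.C_mul {p : BP n R} {a b : ℤ} (h : BH p a b) (r : R) : BH (C r * p) a b :=
  IsWeightedHomogeneous.C_mul h r

theorem BH.sum {ι : Type} (s : Finset ι) (p : ι → BP n R) {a b : ℤ} (h : ∀ i ∈ s, BH (p i) a b) :
    BH (∑ i ∈ s, p i) a b := IsWeightedHomogeneous.sum s p _ h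

theorem BH.pow {p : BP n R} {a b : ℤ} (h : BH p a b) (k : ℕ) : BH (p ^ k) (k * a) (k * b) := by
  induction k with
  | zero => simpa using bh_C (n := n) (1 : R)
  | succ k ih =>
    rw [pow_succ]
    exact (ih.mul h).cast (by push_cast; ring) (by push_cast; ring)

theorem BH.dx {p : BP n R} {a b : ℤ} (h : BH p a b) (i : n) : BH (pderiv (0, i) p) (a - 1) b :=
  IsWeightedHomogeneous.pderiv h (by simp [wt])

theorem BH.dy {p : BP n R} {a b : ℤ} (h : BH p a b) (i : n) : BH (pderiv (1, i) p) a (b - 1) :=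
  IsWeightedHomogeneous.pderiv h (by simp [wt])

theorem bh_tri {S : Type} [CommRing S] [Algebra S (BP n R)] (c : T3 S)
    (hc : ∀ i j k, BH (algebraMap S (BP n R) (c i j k)) 0 0) {u v w : Fin 6 → BP n R}
    {a b a' b' a'' b'' : ℤ} (hu : ∀ i, BH (u i) a b) (hv : ∀ i, BH (v i) a' b')
    (hw : ∀ i, BH (w i) a'' b'') : BH (tri c u v w) (a + a' + a'') (b + b' + b'') :=
  BH.sum _ _ fun i _ => BH.sum _ _ fun j _ => BH.sum _ _ fun k _ =>
    ((((hc i j k).mul (hu i)).mul (hv j)).mul (hw k)).cast (by ring) (by ring)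

/-- bihomogeneous components -/
def cp (a b : ℤ) : BP n R →ₗ[R] BP n R := weightedHomogeneousComponent (wt n) (a, b)

theorem bh_cp (a b : ℤ) (p : BP n R) : BH (cp a b p) a b :=
  weightedHomogeneousComponent_isWeightedHomogeneous _ _

theorem BH.cp_eq {p : BP n R} {a b : ℤ} (h : BH p a b) : cp a b p = p :=
  IsWeightedHomogeneous.weightedHomogeneousComponent_same h

theorem BH.cp_ne {p : BP n R} {a b a' b' : ℤ} (h : BH p a b) (h' : (a', b') ≠ (a, b)) :
    cp a' b' p = 0 :=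
  IsWeightedHomogeneous.weightedHomogeneousComponent_ne _ h h'

theorem cp_map {n' R' : Type} [CommRing R'] (F : BP n R →+ BP n' R') (s t : ℤ)
    (hF : ∀ p a b, BH p a b → BH (F p) (a + s) (b + t)) (a b : ℤ) (p : BP n R) :
    cp (a + s) (b + t) (F p) = F (cp a b p) := by
  induction p using MvPolynomial.induction_on' with
  | add p q hp hq => simp only [map_add, hp, hq]
  | monomial m r =>
    have h : BH (monomial m r : BP n R) (Finsupp.weight (wt n) m).1 (Finsupp.weight (wt n) m).2 :=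
      isWeightedHomogeneous_monomial _ _ _ rfl
    by_cases e : (a, b) = ((Finsupp.weight (wt n) m).1, (Finsupp.weight (wt n) m).2)
    · obtain ⟨rfl, rfl⟩ := Prod.mk.inj e
      rw [h.cp_eq, (hF _ _ _ h).cp_eq]
    · rw [h.cp_ne e, (hF _ _ _ h).cp_ne, map_zero]
      intro e'
      obtain ⟨e1, e2⟩ := Prod.mk.inj e'
      exact e (Prod.ext (by simpa using e1) (by simpa using e2))

theorem cp_mul {φ : BP n R} {s t : ℤ} (h : BH φ s t) (a b : ℤ) (p : BP n R) :
    cp a b (p * φ) = cp (a - s) (b - t) p * φ := by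
  have := cp_map (AddMonoidHom.mulRight φ) s t (fun p a b hp => hp.mul h) (a - s) (b - t) p
  simpa using this

variable [Fintype n]

theorem weight_wt (m : Fin 2 × n →₀ ℕ) : Finsupp.weight (wt n) m =
    (((∑ i, m (0, i) : ℕ) : ℤ), ((∑ i, m (1, i) : ℕ) : ℤ)) := by
  rw [Finsupp.weight_apply, Finsupp.sum_fintype _ _ (fun _ => by simp),
    Fintype.sum_prod_type, Fin.sum_univ_two]
  ext <;> simp [wt, Prod.fst_sum, Prod.snd_sum]

theorem BH.eq_zero {p : BP n R} {a b : ℤ} (h : BH p a b) (h' : a < 0 ∨ b < 0) : p = 0 := by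
  ext m
  by_contra hm
  have e := h hm
  rw [weight_wt] at e
  obtain ⟨e1, e2⟩ := Prod.mk.inj e
  omega

theorem BH.eq_C {p : BP n R} (h : BH p 0 0) : p = C (constantCoeff p) := by
  classical
  ext m
  rw [coeff_C]
  split_ifs with hm
  · rw [← hm]
    rfl
  · by_contra hm'
    have e := h hm'
    rw [weight_wt] at e
    obtain ⟨e1, e2⟩ := Prod.mk.inj e
    have e1' : ∑ i, m (0, i) = 0 := by exact_mod_cast e1
    have e2' : ∑ i, m (1, i) = 0 := by exact_mod_cast e2
    rw [Finset.sum_eq_zero_iff] at e1' e2'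
    refine hm (Finsupp.ext fun ⟨k, i⟩ => ?_)
    fin_cases k
    · exact (e1' i (Finset.mem_univ _)).symm
    · exact (e2' i (Finset.mem_univ _)).symm

variable [DecidableEq n]

/-- polarisation operators -/
def dd (n R : Type) [CommRing R] [DecidableEq n] (a b : Fin 2) : Derivation R (BP n R) (BP n R) :=
  mkDerivation R fun m => if m.1 = b then X (a, m.2) else 0

omit [Fintype n] in
theorem dd_X (a b k : Fin 2) (i : n) :
    dd n R a b (X (k, i)) = if k = b then X (a, i) else 0 := mkDerivation_X _ _ _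

theorem dd_apply (a b : Fin 2) (p : BP n R) :
    dd n R a b p = ∑ i, X (a, i) * pderiv (b, i) p := by
  induction p using MvPolynomial.induction_on with
  | C r => simp
  | add p q hp hq => simp only [map_add, hp, hq, mul_add, Finset.sum_add_distrib]
  | mul_X p m hp =>
    obtain ⟨k, j⟩ := m
    simp only [Derivation.leibniz, smul_eq_mul, hp, dd_X, mul_add, Finset.sum_add_distrib,
      Finset.mul_sum, pderiv_X, Pi.single_apply, Prod.mk.injEq]
    congr 1
    · by_cases hk : k = b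
      · simp [hk, mul_comm]
      · simp [hk]
    · exact Finset.sum_congr rfl fun i _ => by ring

theorem BH.euler {p : BP n R} {a b : ℤ} (h : BH p a b) :
    dd n R 0 0 p = (a : BP n R) * p ∧ dd n R 1 1 p = (b : BP n R) * p := by
  refine IsWeightedHomogeneous.induction_on (motive := fun p _ =>
    dd n R 0 0 p = (a : BP n R) * p ∧ dd n R 1 1 p = (b : BP n R) * p) ?_ ?_ ?_ h
  · simp
  · intro p q _ _ hp hq
    simp only [map_add, hp.1, hp.2, hq.1, hq.2, mul_add, and_self]
  · intro m r hm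
    rw [weight_wt] at hm
    obtain ⟨rfl, rfl⟩ := Prod.mk.inj hm
    simp only [dd_apply, X_mul_pderiv_monomial, nsmul_eq_mul, Int.cast_natCast, Nat.cast_sum,
      Finset.sum_mul, Int.cast_sum, and_self]

theorem BH.ex {p : BP n R} {a b : ℤ} (h : BH p a b) :
    ∑ i, X (0, i) * pderiv (0, i) p = (a : BP n R) * p := by
  rw [← dd_apply, h.euler.1]

theorem BH.ey {p : BP n R} {a b : ℤ} (h : BH p a b) :
    ∑ i, X (1, i) * pderiv (1, i) p = (b : BP n R) * p := by
  rw [← dd_apply, h.euler.2]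

theorem BH.e {p : BP n R} {a b : ℤ} (h : BH p a b) : BH (dd n R 0 1 p) (a + 1) (b - 1) := by
  rw [dd_apply]
  exact BH.sum _ _ fun i _ => ((bh_x i).mul (h.dy i)).cast (by ring) (by ring)

theorem BH.f {p : BP n R} {a b : ℤ} (h : BH p a b) : BH (dd n R 1 0 p) (a - 1) (b + 1) := by
  rw [dd_apply]
  exact BH.sum _ _ fun i _ => ((bh_y i).mul (h.dx i)).cast (by ring) (by ring)

omit [Fintype n] in
theorem dd_comm (p : BP n R) : dd n R 0 1 (dd n R 1 0 p) =
    dd n R 1 0 (dd n R 0 1 p) + (dd n R 0 0 p - dd n R 1 1 p) := by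
  induction p using MvPolynomial.induction_on with
  | C r => simp
  | add p q hp hq =>
    simp only [map_add, hp, hq]
    ring
  | mul_X p m hp =>
    obtain ⟨k, j⟩ := m
    simp only [Derivation.leibniz, smul_eq_mul, map_add, hp, dd_X]
    fin_cases k <;> simp [dd_X] <;> ring

theorem BH.ef {p : BP n R} {a b : ℤ} (h : BH p a b) : dd n R 0 1 (dd n R 1 0 p) =
    dd n R 1 0 (dd n R 0 1 p) + ((a - b : ℤ) : BP n R) * p := by
  rw [dd_comm, h.euler.1, h.euler.2]
  push_cast
  ring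

end gen

/-- the raising operator -/
abbrev eD : Derivation ℂ PP PP := dd (Fin 6) ℂ 0 1

/-- the lowering operator -/
abbrev fD : Derivation ℂ PP PP := dd (Fin 6) ℂ 1 0

theorem eq_zero_of_nat_mul {k : ℕ} (hk : k ≠ 0) {p : PP} (h : (k : PP) * p = 0) : p = 0 :=
  (mul_eq_zero.1 h).resolve_left (Nat.cast_ne_zero.2 hk)

theorem BH.f_zero {p : PP} (h : BH p 2 2) (he : eD p = 0) : fD p = 0 := by
  have h1 := h.f
  have h2 := h1.f
  have h3 : fD (fD (fD p)) = 0 := h2.f.eq_zero (Or.inl (by norm_num))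
  have e0 := h.ef
  have e1 := h1.ef
  have e2 := h2.ef
  rw [he] at e0
  simp only [map_zero, sub_self, Int.cast_zero, zero_mul, add_zero] at e0
  rw [e0] at e1
  norm_num at e1
  rw [h3, e1] at e2
  have e3 : fD (fD p) = 0 := by
    refine eq_zero_of_nat_mul (k := 6) (by norm_num) ?_
    have : fD (2 * fD p) = 2 * fD (fD p) := by
      rw [two_mul, two_mul, map_add]
    simp only [map_zero, map_neg, this] at e2
    norm_num at e2
    push_cast
    linear_combination e2
  rw [e3, map_zero] at e1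
  refine eq_zero_of_nat_mul (k := 2) (by norm_num) ?_
  push_cast
  linear_combination e1

@[simp] theorem eD_xx (i : Fin 6) : eD (xx i) = 0 := by simp [xx, dd_X]

@[simp] theorem eD_yy (i : Fin 6) : eD (yy i) = xx i := by simp [xx, yy, dd_X]

@[simp] theorem fD_xx (i : Fin 6) : fD (xx i) = yy i := by simp [xx, yy, dd_X]

@[simp] theorem fD_yy (i : Fin 6) : fD (yy i) = 0 := by simp [yy, dd_X]

theorem bh_xx (i : Fin 6) : BH (xx i) 1 0 := bh_x i

theorem bh_yy (i : Fin 6) : BH (yy i) 0 1 := bh_y i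

/-- polynomials of bidegree `(1, 1)` -/
theorem BH.eq11 {p : PP} (h : BH p 1 1) :
    p = ∑ i, ∑ j, C (constantCoeff (pderiv (1, j) (pderiv (0, i) p))) * xx i * yy j := by
  have e1 := h.ex
  simp only [Int.cast_one, one_mul] at e1
  conv_lhs => rw [← e1]
  refine Finset.sum_congr rfl fun i _ => ?_
  have e2 := (h.dx i).ey
  simp only [Int.cast_one, one_mul] at e2
  conv_lhs => rw [← e2, Finset.mul_sum]
  refine Finset.sum_congr rfl fun j _ => ?_
  rw [← BH.eq_C (((h.dx i).dy j).cast (by ring) (by ring)), xx, yy]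
  ring

/-- polynomials of bidegree `(3, 0)` -/
theorem BH.eq30 {p : PP} (h : BH p 3 0) : ∃ s : T3 ℂ, Sy s ∧ p = tri s xx xx xx := by
  refine ⟨fun i j k => (1 / 6 : ℂ) *
    constantCoeff (pderiv (0, i) (pderiv (0, j) (pderiv (0, k) p))),
    ⟨fun i j k => by rw [pderiv_comm (0, i) (0, j)],
      fun i j k => by rw [pderiv_comm (0, j) (0, k)]⟩, ?_⟩
  have h1 : ∀ k, BH (pderiv (0, k) p) 2 0 := fun k => (h.dx k).cast (by ring) rfl
  have h2 : ∀ j k, BH (pderiv (0, j) (pderiv (0, k) p)) 1 0 :=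
    fun j k => ((h1 k).dx j).cast (by ring) rfl
  have h3 : ∀ i j k, BH (pderiv (0, i) (pderiv (0, j) (pderiv (0, k) p))) 0 0 :=
    fun i j k => ((h2 j k).dx i).cast (by ring) rfl
  have e : tri (fun i j k => (1 / 6 : ℂ) *
      constantCoeff (pderiv (0, i) (pderiv (0, j) (pderiv (0, k) p)))) xx xx xx =
      C (1 / 6 : ℂ) * ∑ k, X (0, k) * ∑ j, X (0, j) * ∑ i,
      X (0, i) * pderiv (0, i) (pderiv (0, j) (pderiv (0, k) p)) := by
    simp only [tri, Finset.mul_sum, algebraMap_eq, map_mul]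
    rw [Finset.sum_comm]
    refine Eq.trans (Finset.sum_congr rfl fun j _ => Finset.sum_comm) ?_
    rw [Finset.sum_comm]
    refine Finset.sum_congr rfl fun k _ => Finset.sum_congr rfl fun j _ =>
      Finset.sum_congr rfl fun i _ => ?_
    rw [← BH.eq_C (h3 i j k), xx, xx, xx]
    ring
  rw [e]
  simp only [(h2 _ _).ex, Int.cast_one, one_mul, (h1 _).ex]
  have e2 : ∑ k, X (0, k) * (((2 : ℤ) : PP) * pderiv (0, k) p) =
      2 * ∑ k, X (0, k) * pderiv (0, k) p := by
    rw [Finset.mul_sum]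
    exact Finset.sum_congr rfl fun k _ => by push_cast; ring
  rw [e2, h.ex]
  have e3 : (C (1 / 6 : ℂ) : PP) * 6 = 1 := by
    rw [show (6 : PP) = C 6 from rfl, ← map_mul]
    norm_num
  push_cast
  linear_combination -p * e3

end Crest.Agent.X262.Rig38
end
end

-- ▼ part X262/Rig38/Kill
section

/-!
# Row 262, G4, RIG (helper38): invariant lifts and the Koszul argument

* `lift22`, `uniq22` : highest weight lifts of bidegree `(2, 2)` exist and are unique;
* `kill` : `x ∧ θ ∈ II → x ∧ θ = 0`;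
* `homotopy` : `x ∧ θ = 0 = y ∧ θ → θ = x ∧ y ∧ Z`.
-/

set_option autoImplicit false

open MvPolynomial

noncomputable section

namespace Crest.Agent.X262.Rig38

section forms

variable {A : Type} [CommRing A]

/-- four-tensors -/
abbrev T4 (A : Type) : Type := Fin 6 → Fin 6 → Fin 6 → Fin 6 → A

/-- alternating four-tensors -/
structure Alt4 (T : T4 A) : Prop where
  s1 : ∀ i j k l, T j i k l = -T i j k l
  s2 : ∀ i j k l, T i k j l = -T i j k l
  s3 : ∀ i j k l, T i j l k = -T i j k l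

/-- `x ∧ T` -/
def W4 (x : Fin 6 → A) (T : T4 A) (i j k l m : Fin 6) : A :=
  x i * T j k l m - x j * T i k l m + x k * T i j l m - x l * T i j k m + x m * T i j k l

/-- the Pluecker quadrics -/
def P4 (w : Fin 6 → Fin 6 → A) : T4 A := fun i j k l =>
  w i j * w k l - w i k * w j l + w i l * w j k

/-- the polar forms of the Pluecker quadrics -/
def P2 (w z : Fin 6 → Fin 6 → A) : T4 A := fun i j k l =>
  w i j * z k l - w i k * z j l + w i l * z j k + w j k * z i l - w j l * z i k + w k l * z i j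

end forms

variable {c : T3 ℂ}

theorem bh_tri' (c : T3 ℂ) {u v w : Fin 6 → PP} {a b a' b' a'' b'' : ℤ} (hu : ∀ i, BH (u i) a b)
    (hv : ∀ i, BH (v i) a' b') (hw : ∀ i, BH (w i) a'' b'') :
    BH (tri c u v w) (a + a' + a'') (b + b' + b'') := bh_tri c (fun _ _ _ => bh_C _) hu hv hw

theorem bh_ph0 (c : T3 ℂ) : BH (tri c xx xx xx) 3 0 := bh_tri' c bh_xx bh_xx bh_xx
theorem bh_ph1 (c : T3 ℂ) : BH (tri c xx xx yy) 2 1 := bh_tri' c bh_xx bh_xx bh_yy
theorem bh_ph2 (c : T3 ℂ) : BH (tri c xx yy yy) 1 2 := bh_tri' c bh_xx bh_yy bh_yy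
theorem bh_ph3 (c : T3 ℂ) : BH (tri c yy yy yy) 0 3 := bh_tri' c bh_yy bh_yy bh_yy

theorem eD_ph0 (c : T3 ℂ) : eD (tri c xx xx xx) = 0 := by
  rw [tri_der eD c (fun _ _ _ => by simp)]
  simp [tri_zero1, tri_zero2, tri_zero3]

theorem eD_ph1 (c : T3 ℂ) : eD (tri c xx xx yy) = tri c xx xx xx := by
  rw [tri_der eD c (fun _ _ _ => by simp)]
  simp [tri_zero1, tri_zero2]

theorem eD_ph2 (h : Sy c) : eD (tri c xx yy yy) = 2 * tri c xx xx yy := by
  rw [tri_der eD c (fun _ _ _ => by simp)]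
  simp only [eD_xx, eD_yy, tri_zero1]
  rw [h.tri_r xx yy fun l => xx l]
  ring

theorem mem_II (s0 s1 s2 s3 : PP) : s0 * tri c xx xx xx + s1 * tri c xx xx yy +
    s2 * tri c xx yy yy + s3 * tri c yy yy yy ∈ II c := by
  refine add_mem (add_mem (add_mem ?_ ?_) ?_) ?_ <;>
    exact Ideal.mul_mem_left _ _ (Ideal.subset_span (by simp))

theorem BH.ext_II {r : PP} {a b : ℤ} (h : BH r a b) (hr : r ∈ II c) :
    ∃ s0 s1 s2 s3 : PP, BH s0 (a - 3) b ∧ BH s1 (a - 2) (b - 1) ∧ BH s2 (a - 1) (b - 2) ∧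
      BH s3 a (b - 3) ∧ r = s0 * tri c xx xx xx + s1 * tri c xx xx yy + s2 * tri c xx yy yy +
        s3 * tri c yy yy yy := by
  simp only [II, Ideal.mem_span_insert, Ideal.mem_span_singleton'] at hr
  obtain ⟨s0, _, ⟨s1, _, ⟨s2, _, ⟨s3, rfl⟩, rfl⟩, rfl⟩, e⟩ := hr
  refine ⟨cp (a - 3) (b - 0) s0, cp (a - 2) (b - 1) s1, cp (a - 1) (b - 2) s2,
    cp (a - 0) (b - 3) s3, (bh_cp _ _ _).cast rfl (by ring), bh_cp _ _ _, bh_cp _ _ _,
    (bh_cp _ _ _).cast (by ring) rfl, ?_⟩
  rw [← h.cp_eq, e]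
  simp only [map_add, cp_mul (bh_ph0 c), cp_mul (bh_ph1 c), cp_mul (bh_ph2 c), cp_mul (bh_ph3 c)]
  ring

theorem RSq.syz1 (R : RSq c) {s0 s1 : PP} {a b : ℤ} (h : BH s1 a b) (ha : a < 3)
    (e : s0 * tri c xx xx xx + s1 * tri c xx xx yy = 0) : s0 = 0 ∧ s1 = 0 := by
  have h1 : s1 ∈ Ideal.span {tri c xx xx xx} := R.n1 _ (Ideal.mem_span_singleton'.2
    ⟨-s0, by linear_combination -e⟩)
  obtain ⟨t, ht⟩ := Ideal.mem_span_singleton'.1 h1
  have h2 : s1 = 0 := by
    rw [← h.cp_eq, ← ht, cp_mul (bh_ph0 c), (bh_cp _ _ t).eq_zero (Or.inl (by omega)), zero_mul]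
  rw [h2, zero_mul, add_zero] at e
  exact ⟨(mul_eq_zero.1 e).resolve_right R.ne, h2⟩

theorem half_two : (C (1 / 2 : ℂ) : PP) * 2 = 1 := by
  rw [show (2 : PP) = C 2 from rfl, ← map_mul]
  norm_num

theorem lift22 (hs : Sy c) {r : PP} (h : BH r 2 2) (he : eD r ∈ II c) :
    ∃ r', BH r' 2 2 ∧ r - r' ∈ II c ∧ eD r' = 0 := by
  obtain ⟨s0, s1, s2, s3, h0, h1, h2, h3, e⟩ := h.e.ext_II he
  rw [h2.eq_zero (Or.inr (by norm_num)), h3.eq_zero (Or.inr (by norm_num))] at e
  have hb : BH (C (1 / 2 : ℂ) * (s1 - eD s0)) 1 0 :=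
    ((h1.cast (by ring) (by ring)).sub (h0.e.cast (by ring) (by ring))).C_mul _
  have hb' : eD (C (1 / 2 : ℂ) * (s1 - eD s0)) = 0 := hb.e.eq_zero (Or.inr (by norm_num))
  refine ⟨r - (s0 * tri c xx xx yy + (C (1 / 2 : ℂ) * (s1 - eD s0)) * tri c xx yy yy),
    h.sub (((h0.mul (bh_ph1 c)).cast (by ring) (by ring)).add
      ((hb.mul (bh_ph2 c)).cast (by ring) (by ring))), ?_, ?_⟩
  · have := mem_II (c := c) 0 s0 (C (1 / 2 : ℂ) * (s1 - eD s0)) 0
    simpa using this
  · rw [map_sub, map_add, Derivation.leibniz, Derivation.leibniz _ (C (1 / 2 : ℂ) * (s1 - eD s0)),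
      hb', eD_ph1, eD_ph2 hs, e]
    simp only [smul_eq_mul]
    linear_combination -(s1 - eD s0) * tri c xx xx yy * half_two

theorem uniq22 (hs : Sy c) (R : RSq c) {r : PP} (h : BH r 2 2) (hr : r ∈ II c) (he : eD r = 0) :
    r = 0 := by
  obtain ⟨s0, s1, s2, s3, h0, h1, h2, h3, e⟩ := h.ext_II hr
  rw [h0.eq_zero (Or.inl (by norm_num)), h3.eq_zero (Or.inr (by norm_num))] at e
  have h2' : eD s2 = 0 := h2.e.eq_zero (Or.inr (by norm_num))
  rw [e] at he
  simp only [zero_mul, zero_add, add_zero, map_add, Derivation.leibniz, smul_eq_mul, h2', eD_ph1,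
    eD_ph2 hs] at he
  have hb : BH (eD s1 + (s2 + s2)) 1 0 := (h1.e.cast (by ring) (by ring)).add
    ((h2.add h2).cast (by ring) (by ring))
  obtain ⟨e1, e2⟩ := R.syz1 (s0 := s1) hb (by norm_num) (by linear_combination he)
  have e3 : s2 = 0 := by
    rw [e1, map_zero] at e2
    linear_combination C (1 / 2 : ℂ) * e2 - s2 * half_two
  rw [e, e1, e3]
  simp

/-- the highest weight vectors in the ideal -/
def Psi (c : T3 ℂ) (a : PP) : PP :=
  a * tri c xx xx xx - eD a * tri c xx xx yy + C (1 / 2 : ℂ) * eD (eD a) * tri c xx yy yy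

theorem exists_psi (hs : Sy c) (R : RSq c) {r : PP} (h : BH r 3 2) (hr : r ∈ II c)
    (he : eD r = 0) : ∃ a, BH a 0 2 ∧ r = Psi c a := by
  obtain ⟨s0, s1, s2, s3, h0, h1, h2, h3, e⟩ := h.ext_II hr
  rw [h3.eq_zero (Or.inr (by norm_num))] at e
  have h2' : eD s2 = 0 := h2.e.eq_zero (Or.inr (by norm_num))
  rw [e] at he
  simp only [zero_mul, add_zero, map_add, Derivation.leibniz, smul_eq_mul, h2', eD_ph0, eD_ph1,
    eD_ph2 hs] at he
  have hb : BH (eD s1 + (s2 + s2)) 2 0 := (h1.e.cast (by ring) (by ring)).add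
    ((h2.add h2).cast (by ring) (by ring))
  obtain ⟨e1, e2⟩ := R.syz1 (s0 := eD s0 + s1) hb (by norm_num) (by linear_combination he)
  refine ⟨s0, h0.cast (by ring) rfl, ?_⟩
  have e3 : eD s0 = -s1 := by linear_combination e1
  rw [Psi, e3, map_neg, e]
  linear_combination tri c xx yy yy * (C (1 / 2 : ℂ) * e2 - s2 * half_two)

theorem psi_eq_zero (R : RSq c) {u : PP} (h : BH u 1 2) (e : Psi c u = 0) : u = 0 := by
  have h1 : C (1 / 2 : ℂ) * eD (eD u) ∈ Ideal.span {tri c xx xx xx, tri c xx xx yy} :=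
    R.n2 _ (Ideal.mem_span_pair.2 ⟨-u, eD u, by rw [Psi] at e; linear_combination -e⟩)
  obtain ⟨s0, s1, e1⟩ := Ideal.mem_span_pair.1 h1
  have h2 : BH (C (1 / 2 : ℂ) * eD (eD u)) 3 0 := (h.e.e.C_mul _).cast (by ring) (by ring)
  have e2 : C (1 / 2 : ℂ) * eD (eD u) = cp (3 - 3) (0 - 0) s0 * tri c xx xx xx := by
    rw [← h2.cp_eq, ← e1, map_add, cp_mul (bh_ph0 c), cp_mul (bh_ph1 c),
      (bh_cp _ _ s1).eq_zero (Or.inr (by norm_num)), zero_mul, add_zero]
  obtain ⟨-, e3⟩ := R.syz1 (s0 := u + cp (3 - 3) (0 - 0) s0 * tri c xx yy yy) h.e.neg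
    (by norm_num) (by rw [Psi, e2] at e; linear_combination e)
  rw [Psi, neg_eq_zero.1 e3, map_zero] at e
  simp only [zero_mul, mul_zero, sub_zero, add_zero] at e
  exact (mul_eq_zero.1 e).resolve_right R.ne

theorem exists_ne5 (i j k l m : Fin 6) : ∃ n, i ≠ n ∧ j ≠ n ∧ k ≠ n ∧ l ≠ n ∧ m ≠ n := by
  have : ({i, j, k, l, m} : Finset (Fin 6)).card < (Finset.univ : Finset (Fin 6)).card :=
    lt_of_le_of_lt Finset.card_le_five (by simp)
  obtain ⟨n, -, hn⟩ := Finset.exists_mem_notMem_of_card_lt_card this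
  simp only [Finset.mem_insert, Finset.mem_singleton, not_or] at hn
  exact ⟨n, Ne.symm hn.1, Ne.symm hn.2.1, Ne.symm hn.2.2.1, Ne.symm hn.2.2.2.1, Ne.symm hn.2.2.2.2⟩

theorem psi_x (i : Fin 6) (a : PP) : Psi c (xx i * a) = xx i * Psi c a := by
  simp only [Psi, Derivation.leibniz, smul_eq_mul, eD_xx, mul_zero, add_zero]
  ring

theorem psi_add (a b : PP) : Psi c (a + b) = Psi c a + Psi c b := by
  simp only [Psi, map_add]
  ring

theorem psi_sub (a b : PP) : Psi c (a - b) = Psi c a - Psi c b := by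
  simp only [Psi, map_sub]
  ring

theorem dx_xx (n i : Fin 6) : pderiv (0, n) (xx i) = if i = n then 1 else 0 := by
  simp [xx, pderiv_X, Pi.single_apply]

theorem dx_yy (n i : Fin 6) : pderiv (0, n) (yy i) = 0 := by
  simp [yy, pderiv_X]

theorem dy_yy (n i : Fin 6) : pderiv (1, n) (yy i) = if i = n then 1 else 0 := by
  simp [yy, pderiv_X, Pi.single_apply]

theorem kill (hs : Sy c) (R : RSq c) {T : T4 PP} (h : ∀ i j k l, BH (T i j k l) 2 2)
    (he : ∀ i j k l, eD (T i j k l) = 0) (hI : ∀ i j k l m, W4 xx T i j k l m ∈ II c)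
    (i j k l m : Fin 6) : W4 xx T i j k l m = 0 := by
  have hx : ∀ i j k l m, BH (xx i * T j k l m) 3 2 := fun i j k l m =>
    ((bh_xx i).mul (h j k l m)).cast (by ring) (by ring)
  have H : ∀ i j k l m, ∃ a, BH a 0 2 ∧ W4 xx T i j k l m = Psi c a := fun i j k l m =>
    exists_psi hs R (((((hx ..).sub (hx ..)).add (hx ..)).sub (hx ..)).add (hx ..)) (hI i j k l m)
      (by simp [W4, Derivation.leibniz, he])
  choose a ha e using H
  have hx' : ∀ n i j k l m, BH (xx n * a i j k l m) 1 2 := fun n i j k l m =>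
    ((bh_xx n).mul (ha i j k l m)).cast (by ring) (by ring)
  obtain ⟨n, hi, hj, hk, hl, hm⟩ := exists_ne5 i j k l m
  have e1 : xx n * a i j k l m - xx i * a n j k l m + xx j * a n i k l m - xx k * a n i j l m +
      xx l * a n i j k m - xx m * a n i j k l = 0 := by
    refine psi_eq_zero R ((((((hx' ..).sub (hx' ..)).add (hx' ..)).sub (hx' ..)).add
      (hx' ..)).sub (hx' ..)) ?_
    simp only [psi_add, psi_sub, psi_x, ← e, W4]
    ring
  have hd : ∀ i j k l m, pderiv (0, n) (a i j k l m) = 0 := fun i j k l m =>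
    ((ha i j k l m).dx n).eq_zero (Or.inl (by norm_num))
  have e2 := congrArg (pderiv (0, n)) e1
  simp only [map_add, map_sub, Derivation.leibniz, smul_eq_mul, hd, dx_xx, hi, hj, hk, hl, hm,
    if_true, if_false, mul_zero, mul_one, zero_add, add_zero, sub_zero, map_zero] at e2
  rw [e, e2]
  simp [Psi]

theorem homotopy {T : T4 PP} (h : ∀ i j k l, BH (T i j k l) 2 2) (ht : Alt4 T)
    (hf : ∀ i j k l, fD (T i j k l) = 0) (hx : ∀ i j k l m, W4 xx T i j k l m = 0) :
    ∃ Z : Fin 6 → Fin 6 → PP, (∀ i j, BH (Z i j) 1 1) ∧ (∀ i j, Z j i = -Z i j) ∧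
      ∀ i j k l, 20 * T i j k l = P2 (plk xx yy) Z i j k l := by
  have hy : ∀ i j k l m, W4 yy T i j k l m = 0 := fun i j k l m => by
    have := congrArg fD (hx i j k l m)
    simp only [W4, map_add, map_sub, Derivation.leibniz, hf, smul_eq_mul, fD_xx, map_zero] at this
    rw [W4]
    linear_combination this
  obtain ⟨U, hU⟩ : ∃ U : Fin 6 → Fin 6 → Fin 6 → PP,
    ∀ k l m, U k l m = ∑ i, pderiv (0, i) (T i k l m) := ⟨_, fun _ _ _ => rfl⟩
  have hUb : ∀ k l m, BH (U k l m) 1 2 := fun k l m => by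
    rw [hU]
    exact BH.sum _ _ fun i _ => ((h i k l m).dx i).cast (by ring) rfl
  have U1 : ∀ k l m, U l k m = -U k l m := fun k l m => by
    simp only [hU, ht.s2 _ k l m, map_neg, Finset.sum_neg_distrib]
  have U2 : ∀ k l m, U k m l = -U k l m := fun k l m => by
    simp only [hU, ht.s3 _ k l m, map_neg, Finset.sum_neg_distrib]
  have e1 : ∀ j k l m, 4 * T j k l m =
      xx j * U k l m - xx k * U j l m + xx l * U j k m - xx m * U j k l := fun j k l m => by
    have : ∑ i, pderiv (0, i) (W4 xx T i j k l m) = 0 := by simp [hx]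
    have ex := (h j k l m).ex
    simp only [W4, map_add, map_sub, Derivation.leibniz, smul_eq_mul, dx_xx, Finset.sum_add_distrib,
      Finset.sum_sub_distrib, ← Finset.mul_sum, ← hU, if_true, mul_ite, mul_one, mul_zero,
      Finset.sum_ite_eq, Finset.mem_univ, Finset.sum_const, Finset.card_univ, Fintype.card_fin,
      nsmul_eq_mul] at this
    simp only [xx] at this ⊢
    rw [ex, ht.s1 j k l m, ht.s1 j l k m, ht.s2 j k l m, ht.s1 j m k l, ht.s2 j k m l,
      ht.s3 j k l m] at this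
    push_cast at this
    linear_combination this
  have e2 : ∀ j k l m, yy j * U k l m - yy k * U j l m + yy l * U j k m - yy m * U j k l = 0 :=
    fun j k l m => by
    have : ∑ i, pderiv (0, i) (W4 yy T i j k l m) = 0 := by simp [hy]
    have ef := hf j k l m
    rw [dd_apply] at ef
    simp only [W4, map_add, map_sub, Derivation.leibniz, smul_eq_mul, dx_yy, Finset.sum_add_distrib,
      Finset.sum_sub_distrib, ← Finset.mul_sum, ← hU, mul_zero, add_zero] at this
    simp only [yy] at this ⊢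
    rw [ef] at this
    linear_combination -this
  obtain ⟨Z, hZ⟩ : ∃ Z : Fin 6 → Fin 6 → PP,
    ∀ l m, Z l m = ∑ i, pderiv (1, i) (U i l m) := ⟨_, fun _ _ => rfl⟩
  have e3 : ∀ k l m, 5 * U k l m = yy k * Z l m - yy l * Z k m + yy m * Z k l := fun k l m => by
    have : ∑ j, pderiv (1, j) (yy j * U k l m - yy k * U j l m + yy l * U j k m -
      yy m * U j k l) = 0 := by simp [e2]
    have ey := (hUb k l m).ey
    simp only [map_add, map_sub, Derivation.leibniz, smul_eq_mul, dy_yy, Finset.sum_add_distrib,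
      Finset.sum_sub_distrib, ← Finset.mul_sum, ← hZ, if_true, mul_ite, mul_one, mul_zero,
      Finset.sum_ite_eq, Finset.mem_univ, Finset.sum_const, Finset.card_univ, Fintype.card_fin,
      nsmul_eq_mul] at this
    simp only [yy] at this ⊢
    rw [ey, U1 k l m, U1 k m l, U2 k l m] at this
    push_cast at this
    linear_combination this
  refine ⟨Z, fun l m => ?_, fun l m => ?_, fun i j k l => ?_⟩
  · rw [hZ]
    exact BH.sum _ _ fun i _ => ((hUb i l m).dy i).cast rfl (by ring)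
  · simp only [hZ, U2 _ l m, map_neg, Finset.sum_neg_distrib]
  · simp only [P2, plk]
    linear_combination 5 * e1 i j k l + xx i * e3 j k l - xx j * e3 i k l + xx k * e3 i j l -
      xx l * e3 i j k

end Crest.Agent.X262.Rig38
end
end

-- ▼ part X262/Rig38/Rho

/-!
# Row 262, G4, RIG (helper38): the generic frame

* `rho a : ℂ[x, y] → K[g]`, `x ↦ g₀₀ p + g₀₁ q`, `y ↦ g₁₀ p + g₁₁ q`;
* `rho_eq_zero` : its kernel is `II`;
* `ext_range` : the extension lemma; `lift_sec` : sections of `O(k)` are bihomogeneous polynomials.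
-/

set_option autoImplicit false
set_option linter.unusedSectionVars false

open MvPolynomial

noncomputable section

namespace Crest.Agent.X262.Rig38

section gen

variable {A : Type} [CommRing A] [Algebra ℂ A]

/-- the generic frame over the point `a` -/
def rho (a : Fin 8 → A) : PP →ₐ[ℂ] BP (Fin 2) A :=
  aeval fun m => X (m.1, 0) * C (pv a m.2) + X (m.1, 1) * C (qv a m.2)

/-- the determinant -/
def dt (A : Type) [CommRing A] : BP (Fin 2) A := X (0, 0) * X (1, 1) - X (0, 1) * X (1, 0)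

theorem rho_X (a : Fin 8 → A) (k : Fin 2) (i : Fin 6) :
    rho a (X (k, i)) = X (k, 0) * C (pv a i) + X (k, 1) * C (qv a i) := aeval_X _ _

theorem rho_xx (a : Fin 8 → A) (i : Fin 6) :
    rho a (xx i) = X (0, 0) * C (pv a i) + X (0, 1) * C (qv a i) := aeval_X _ _

theorem rho_yy (a : Fin 8 → A) (i : Fin 6) :
    rho a (yy i) = X (1, 0) * C (pv a i) + X (1, 1) * C (qv a i) := aeval_X _ _

theorem rho_plk (a : Fin 8 → A) (i j : Fin 6) :
    rho a (plk xx yy i j) = dt A * C (plk (pv a) (qv a) i j) := by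
  simp only [plk, map_sub, map_mul, rho_xx, rho_yy, dt]
  ring

theorem rho_plk01 (a : Fin 8 → A) : rho a (plk xx yy 0 1) = dt A := by
  rw [rho_plk, plk01, map_one, mul_one]

theorem bh_dt : BH (dt A) 1 1 :=
  (((bh_x 0).mul (bh_y 1)).sub ((bh_x 1).mul (bh_y 0))).cast (by ring) (by ring)

theorem e_dt : dd (Fin 2) A 0 1 (dt A) = 0 := by
  simp [dt, Derivation.leibniz, dd_X]
  ring

theorem OnL.map_C {c : T3 ℂ} {u v : Fin 6 → A} (o : OnL c u v) :
    OnL c (fun l => (C (u l) : BP (Fin 2) A)) (fun l => C (v l)) := by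
  have hC : ∀ u v w : Fin 6 → A, (C (tri c u v w) : BP (Fin 2) A) =
      tri c (fun l => C (u l)) (fun l => C (v l)) (fun l => C (w l)) := fun u v w =>
    tri_map C _ _ (fun _ _ _ => rfl) u v w
  exact ⟨by rw [← hC, o.h0, map_zero], by rw [← hC, o.h1, map_zero], by rw [← hC, o.h2, map_zero],
    by rw [← hC, o.h3, map_zero]⟩

theorem rho_II {c : T3 ℂ} (hs : Sy c) {a : Fin 8 → A} (o : OnL c (pv a) (qv a)) {r : PP}
    (hr : r ∈ II c) : rho a r = 0 := by
  refine (Ideal.span_le (I := RingHom.ker (rho a))).2 ?_ hr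
  intro s h
  simp only [Set.mem_insert_iff, Set.mem_singleton_iff] at h
  rcases h with rfl | rfl | rfl | rfl <;>
  · change rho a _ = 0
    simp only [tri_alg, rho_xx, rho_yy]
    exact o.map_C.tri_eq hs ..

theorem rho_bh (a : Fin 8 → A) {p : PP} {s t : ℤ} (h : BH p s t) : BH (rho a p) s t := by
  refine IsWeightedHomogeneous.induction_on (motive := fun p _ => BH (rho a p) s t) ?_ ?_ ?_ h
  · rw [map_zero]
    exact bh_zero _ _
  · intro p q _ _ hp hq
    rw [map_add]
    exact hp.add hq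
  · intro m r hm
    rw [rho, aeval_monomial, BH, ← hm, Finsupp.weight_apply]
    refine IsWeightedHomogeneous.C_mul (IsWeightedHomogeneous.prod _ _ _ fun ⟨k, i⟩ _ =>
      IsWeightedHomogeneous.pow ?_ _) _
    have : ∀ (l : Fin 2) (b : A), IsWeightedHomogeneous (wt (Fin 2)) (X (k, l) * C b : BP (Fin 2) A)
        (wt (Fin 6) (k, i)) := fun l b => by
      rw [mul_comm]
      exact (isWeightedHomogeneous_X _ _ _).C_mul _
    exact (this _ _).add (this _ _)

theorem rho_cp (a : Fin 8 → A) (s t : ℤ) (p : PP) : cp s t (rho a p) = rho a (cp s t p) := by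
  have := cp_map (rho a).toRingHom.toAddMonoidHom 0 0
    (fun p s t hp => (rho_bh a hp).cast (by ring) (by ring)) s t p
  simpa using this

theorem rho_e (a : Fin 8 → A) (p : PP) : rho a (eD p) = dd (Fin 2) A 0 1 (rho a p) := by
  induction p using MvPolynomial.induction_on with
  | C r =>
    rw [derivation_C, map_zero, algHom_C]
    exact (derivation_C _ _).symm
  | add p q hp hq => simp only [map_add, hp, hq]
  | mul_X p m hp =>
    obtain ⟨k, j⟩ := m
    simp only [Derivation.leibniz, smul_eq_mul, map_add, map_mul, hp, dd_X, rho_X, derivation_C]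
    fin_cases k <;> simp [rho_X]
    ring

theorem pv_of {u : Fin 6 → A} (h0 : u 0 = 1) (h1 : u 1 = 0) (v : Fin 6 → A) :
    pv ![u 2, u 3, u 4, u 5, v 2, v 3, v 4, v 5] = u := by
  funext l
  fin_cases l <;> simp [pv, h0, h1]

theorem qv_of {v : Fin 6 → A} (h0 : v 0 = 0) (h1 : v 1 = 1) (u : Fin 6 → A) :
    qv ![u 2, u 3, u 4, u 5, v 2, v 3, v 4, v 5] = v := by
  funext l
  fin_cases l <;> simp [qv, h0, h1]

end gen

variable {G : MvPolynomial (Fin 6) ℂ} {K : Type} [Field K] [Algebra ℂ K] {a : Fin 8 → K}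

theorem GenPt.onL (hG : G.IsHomogeneous 3) (g : GenPt G a) : OnL (ten G) (pv a) (qv a) :=
  (onL_iff hG a).2 fun r hr => (g r).2 hr

theorem nz_pow {c : T3 ℂ} (R : RSq c) (N : ℕ) (r : PP) (h : plk xx yy 0 1 ^ N * r ∈ II c) :
    r ∈ II c := by
  induction N with
  | zero => simpa using h
  | succ N ih => exact ih (R.nz _ (by rwa [← mul_assoc, ← pow_succ']))

/-- a frame over any ring in which `p₀₁` is a unit is a specialisation of the generic frame -/
theorem spec_zero (hG : G.IsHomogeneous 3) (g : GenPt G a) {A : Type} [CommRing A] [Algebra ℂ A]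
    (ψ : PP →ₐ[ℂ] A) (hψ : ∀ r ∈ II (ten G), ψ r = 0) (d : A) (hd : d * ψ (plk xx yy 0 1) = 1)
    {r : PP} (h : rho a r = 0) : ψ r = 0 := by
  have o : OnL (ten G) (fun l => ψ (xx l)) (fun l => ψ (yy l)) := by
    refine ⟨?_, ?_, ?_, ?_⟩ <;> rw [← tri_alg] <;> exact hψ _ (Ideal.subset_span (by simp))
  simp only [plk, map_sub, map_mul] at hd
  obtain ⟨p, hp⟩ : ∃ p : Fin 6 → A, p = fun l =>
    (d * ψ (yy 1)) * ψ (xx l) + (-d * ψ (xx 1)) * ψ (yy l) := ⟨_, rfl⟩
  obtain ⟨q, hq⟩ : ∃ q : Fin 6 → A, q = fun l =>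
    (-d * ψ (yy 0)) * ψ (xx l) + (d * ψ (xx 0)) * ψ (yy l) := ⟨_, rfl⟩
  have o' : OnL (ten G) p q := by
    rw [hp, hq]
    exact o.comb (ten_sy G) ..
  obtain ⟨a', ha'⟩ : ∃ a' : Fin 8 → A, a' = ![p 2, p 3, p 4, p 5, q 2, q 3, q 4, q 5] := ⟨_, rfl⟩
  have e1 : pv a' = p := ha' ▸ pv_of (by rw [hp]; linear_combination hd) (by rw [hp]; ring) q
  have e2 : qv a' = q := ha' ▸ qv_of (by rw [hq]; ring) (by rw [hq]; linear_combination hd) p
  rw [← e1, ← e2, onL_iff hG] at o'
  let σ : BP (Fin 2) (MvPolynomial (Fin 8) ℂ) →+* A :=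
    eval₂Hom (aeval a' : MvPolynomial (Fin 8) ℂ →ₐ[ℂ] A).toRingHom
      fun m => ψ (X (m.1, if m.2 = 0 then 0 else 1))
  have h1 : ∀ r, σ (rho X r) = ψ r := fun r => by
    induction r using MvPolynomial.induction_on with
    | C z =>
      rw [algHom_C, algHom_C]
      exact (eval₂Hom_C _ _ _).trans ((aeval a').commutes z)
    | add p q hp hq => simp only [map_add, hp, hq]
    | mul_X s m hs =>
      obtain ⟨k, j⟩ := m
      rw [map_mul, map_mul, map_mul, hs, rho_X]
      congr 1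
      simp only [σ, map_add, map_mul, eval₂Hom_X', eval₂Hom_C, pv_map, qv_map]
      simp only [AlgHom.toRingHom_eq_coe, RingHom.coe_coe, aeval_X, e1, e2]
      rw [hp, hq]
      fin_cases k
      · simp only [xx, yy] at hd ⊢
        simp
        linear_combination ψ (X (0, j)) * hd
      · simp only [xx, yy] at hd ⊢
        simp
        linear_combination ψ (X (1, j)) * hd
  have h2 : ∀ r, map (aeval a : MvPolynomial (Fin 8) ℂ →ₐ[ℂ] K).toRingHom (rho X r) = rho a r :=
    fun r => by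
    induction r using MvPolynomial.induction_on with
    | C z =>
      rw [algHom_C, algHom_C]
      exact (map_C _ _).trans (congrArg C ((aeval a).commutes z))
    | add p q hp hq => simp only [map_add, hp, hq]
    | mul_X s m hs =>
      obtain ⟨k, j⟩ := m
      rw [map_mul, map_mul, map_mul, hs, rho_X, rho_X]
      simp only [map_add, map_mul, map_X, map_C, pv_map, qv_map]
      simp only [AlgHom.toRingHom_eq_coe, RingHom.coe_coe, aeval_X]
  rw [← h1, (rho X r).as_sum, map_sum]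
  refine Finset.sum_eq_zero fun m _ => ?_
  have h3 : aeval a (coeff m (rho (X : Fin 8 → MvPolynomial (Fin 8) ℂ) r)) = 0 := by
    have := congrArg (coeff m) ((h2 r).trans h)
    rwa [coeff_map] at this
  simp only [σ, eval₂Hom_monomial]
  rw [show (aeval a' : MvPolynomial (Fin 8) ℂ →ₐ[ℂ] A).toRingHom (coeff m (rho X r)) = 0 from
    o' _ ((g _).1 h3), zero_mul]

theorem rho_eq_zero (hG : G.IsHomogeneous 3) (R : RSq (ten G)) (g : GenPt G a) {r : PP} :
    rho a r = 0 ↔ r ∈ II (ten G) := by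
  refine ⟨fun h => ?_, rho_II (ten_sy G) (g.onL hG)⟩
  let D := Ideal.Quotient.mk (II (ten G)) (plk xx yy 0 1)
  have := spec_zero hG g ((IsScalarTower.toAlgHom ℂ _ (Localization.Away D)).comp
    (Ideal.Quotient.mkₐ ℂ (II (ten G)))) (fun r hr => by
      simp [Ideal.Quotient.eq_zero_iff_mem.2 hr]) (IsLocalization.Away.invSelf D)
    (by rw [mul_comm]; exact IsLocalization.Away.mul_invSelf D) h
  obtain ⟨⟨_, N, rfl⟩, e⟩ := (IsLocalization.map_eq_zero_iff (Submonoid.powers D) _ _).1 this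
  refine nz_pow R N r (Ideal.Quotient.eq_zero_iff_mem.1 ?_)
  rw [map_mul, map_pow]
  exact e

theorem dt_ne : dt K ≠ 0 := fun h => by
  have := congrArg (eval fun m : Fin 2 × Fin 2 => if m.1 = m.2 then (1 : K) else 0) h
  simp [dt] at this

theorem ext_range (hG : G.IsHomogeneous 3) (R : RSq (ten G)) (g : GenPt G a) {h : BP (Fin 2) K}
    (H : ∀ i j, ∃ (N : ℕ) (r : PP), rho a r = rho a (plk xx yy i j) ^ N * h) :
    ∃ r, rho a r = h := by
  choose N r hr using H
  obtain ⟨M, hM⟩ : ∃ M, ∀ i j, N i j ≤ M :=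
    ⟨∑ i, ∑ j, N i j, fun i j => (Finset.single_le_sum (f := N i) (fun _ _ => Nat.zero_le _)
      (Finset.mem_univ j)).trans (Finset.single_le_sum (f := fun i => ∑ j, N i j)
        (fun _ _ => Nat.zero_le _) (Finset.mem_univ i))⟩
  have H' : ∀ i j, ∃ r : PP, rho a r = rho a (plk xx yy i j) ^ M * h := fun i j =>
    ⟨plk xx yy i j ^ (M - N i j) * r i j, by
      rw [map_mul, map_pow, hr, ← mul_assoc, ← pow_add, Nat.sub_add_cancel (hM i j)]⟩
  choose r' hr' using H'
  have key : ∀ n : ℕ, (∃ s, rho a s = dt K ^ n * h) → ∃ s, rho a s = h := fun n => by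
    induction n with
    | zero => simp
    | succ n ih =>
      rintro ⟨s, hs⟩
      have h1 : s ∈ II (ten G) ⊔ Ideal.span {plk xx yy 0 1} := R.s2 s M fun i j => by
        refine Submodule.mem_sup.2 ⟨plk xx yy i j ^ M * s - plk xx yy 0 1 ^ (n + 1) * r' i j,
          (rho_eq_zero hG R g).1 ?_, plk xx yy 0 1 ^ (n + 1) * r' i j,
          Ideal.mem_span_singleton'.2 ⟨plk xx yy 0 1 ^ n * r' i j, by ring⟩, by ring⟩
        rw [map_sub, map_mul, map_mul, map_pow, map_pow, hs, hr', rho_plk01]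
        ring
      obtain ⟨y, hy, z, hz, e⟩ := Submodule.mem_sup.1 h1
      obtain ⟨w, rfl⟩ := Ideal.mem_span_singleton'.1 hz
      refine ih ⟨w, mul_right_cancel₀ dt_ne ?_⟩
      rw [← e, map_add, (rho_eq_zero hG R g).2 hy, zero_add, map_mul, rho_plk01] at hs
      rw [hs]
      ring
  exact key M ⟨r' 0 1, by rw [hr', rho_plk01]⟩

theorem ext_bh (hG : G.IsHomogeneous 3) (R : RSq (ten G)) (g : GenPt G a) {h : BP (Fin 2) K}
    {s t : ℤ} (hb : BH h s t)
    (H : ∀ i j, ∃ (N : ℕ) (r : PP), rho a r = rho a (plk xx yy i j) ^ N * h) :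
    ∃ r, BH r s t ∧ rho a r = h := by
  obtain ⟨r, hr⟩ := ext_range hG R g H
  exact ⟨cp s t r, bh_cp _ _ _, by rw [← rho_cp, hr, hb.cp_eq]⟩

theorem aeval_hom_mul {σ A : Type} [CommRing A] [Algebra ℂ A] {P : MvPolynomial σ ℂ} {n : ℕ}
    (h : P.IsHomogeneous n) (d : A) (f : σ → A) :
    aeval (fun m => d * f m) P = d ^ n * aeval f P := by
  refine IsWeightedHomogeneous.induction_on (motive := fun P _ =>
    aeval (fun m => d * f m) P = d ^ n * aeval f P) ?_ ?_ ?_ h
  · simp
  · intro p q _ _ hp hq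
    rw [map_add, map_add, hp, hq, mul_add]
  · intro m r hm
    rw [aeval_monomial, aeval_monomial, ← hm, Finsupp.weight_apply]
    simp only [Finsupp.prod, Finsupp.sum, mul_pow, Finset.prod_mul_distrib, Pi.one_apply,
      smul_eq_mul, mul_one, Finset.prod_pow_eq_pow_sum]
    ring

theorem lift_sec (hG : G.IsHomogeneous 3) (R : RSq (ten G)) (g : GenPt G a) {k : ℕ} {s : K}
    (hs : s ∈ Sec (plk (pv a) (qv a)) k) : ∃ r, BH r k k ∧ rho a r = dt K ^ k * C s := by
  refine ext_bh hG R g (((bh_dt.pow k).mul (bh_C s)).cast (by ring) (by ring)) fun i j => ?_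
  obtain ⟨N, P, hP, e⟩ := hs i j
  refine ⟨N, aeval (fun m : Fin 6 × Fin 6 => plk xx yy m.1 m.2) P, ?_⟩
  have e' : (C (aeval (fun m : Fin 6 × Fin 6 => plk (pv a) (qv a) m.1 m.2) P) : BP (Fin 2) K) =
      aeval (fun m : Fin 6 × Fin 6 => C (plk (pv a) (qv a) m.1 m.2)) P :=
    comp_aeval_apply _ (IsScalarTower.toAlgHom ℂ K (BP (Fin 2) K)) P
  rw [comp_aeval_apply]
  simp only [rho_plk]
  rw [aeval_hom_mul hP, ← e', ← e, map_mul, map_pow]
  ring

end Crest.Agent.X262.Rig38
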